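import Vale.Agent.P181.T8.Uni
import Vale.Agent.P181.H403.T8All
import Vale.Agent.P181.H59.Des6All
import Vale.Agent.P181.H12.Beta
import Vale.Agent.P181.T7.Done

set_option autoImplicit false

/-!
# P181, T8: the unconditional theorems
-/

namespace Vale.Agent.P181.T8

open Vale.Agent.P181.T4 Vale.Agent.P181.T7 Vale.Agent.P181.H280

/-- The passage from large `a` (and `a` rows) to all `a` (and all numbers of rows), all shapes. -/
theorem const_all {x : ℝ} (hx : 0 ≤ x)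
    (h : ∀ᶠ a : ℕ in Filter.atTop, ∀ b : ℕ, (a : ℝ) ^ x ≤ b → ∀ lam : Fin a → ℕ, Antitone lam →
      ∑ i, lam i = a * b → plethMult a b a lam ≤ plethMult b a a lam) :
    ∃ C : ℝ, 1 ≤ C ∧ ∀ a b : ℕ, C * (a : ℝ) ^ x ≤ b → ∀ (n : ℕ) (lam : Fin n → ℕ),
      plethMult a b n lam ≤ plethMult b a n lam := by
  obtain ⟨a₀, h0⟩ := Filter.eventually_atTop.1 h
  refine ⟨(a₀ : ℝ) ^ 2 + 1, by nlinarith [sq_nonneg (a₀ : ℝ)], fun a b hb n lam => ?_⟩
  rcases Nat.lt_or_ge a a₀ with ha | ha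
  · apply H463.big_stmt
    rcases Nat.eq_zero_or_pos a with ha0 | ha0
    · subst ha0
      simp
    · have h1 : (1 : ℝ) ≤ (a : ℝ) ^ x := Real.one_le_rpow (by exact_mod_cast ha0) hx
      have h2 : (a₀ : ℝ) ^ 2 ≤ b := by nlinarith [sq_nonneg (a₀ : ℝ)]
      have h3 : a₀ ^ 2 ≤ b := by exact_mod_cast h2
      exact (Nat.pow_le_pow_left (by omega) 2).trans h3
  · have hb' : (a : ℝ) ^ x ≤ b := by
      have h1 : (0 : ℝ) ≤ (a : ℝ) ^ x := by positivity
      nlinarith [sq_nonneg (a₀ : ℝ)]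
    exact all_n_cells H530.pad_stmt H530.zero_stmt (fun _ => True)
      (fun mu hmu hsum _ => h0 a ha b hb' mu hmu hsum) n lam trivial

/-- Many cells below the first row. -/
theorem f8_one : F8 1 1 := by
  intro ε hε
  have h := H12.first_row T7.f_done H463.big_stmt ε hε
  have e1 : (1 + 1 + ε : ℝ) = 2 + ε := by ring
  rw [e1]
  exact h

/-- Many cells below the row `j`. -/
theorem f8_many (j : ℕ) (hj : 2 ≤ j) : F8 (1 / (j : ℝ)) j := by
  have hj0 : (0 : ℝ) < j := by exact_mod_cast (by omega : 0 < j)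
  have hj2 : (2 : ℝ) ≤ j := by exact_mod_cast hj
  refine f8 H59.Des6All.lb9 (by positivity) ?_ hj ?_
  · rw [div_le_div_iff₀ hj0 (by norm_num)]
    linarith
  · rw [mul_one_div_cancel hj0.ne']

/-- **Many cells below some row**, one constant. -/
theorem uniform_done (ε : ℝ) (hε : 0 < ε) :
    ∃ C : ℝ, 1 ≤ C ∧ ∀ (a b n : ℕ) (lam : Fin n → ℕ), C * (a : ℝ) ^ (1 + ε) ≤ b →
      (∃ j : ℕ, 1 ≤ j ∧ C * (a : ℝ) ^ (1 + 1 / (j : ℝ) + ε) ≤ cells j lam) →
      plethMult a b n lam ≤ plethMult b a n lam :=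
  uniform f8_one f8_many ε hε

/-- **Foulkes' inequality for all partitions, once `b ≥ C a ^ (47 / 36 + ε)`.** -/
theorem gamma_done (ε : ℝ) (hε : 0 < ε) :
    ∃ C : ℝ, 1 ≤ C ∧ ∀ a b : ℕ, C * (a : ℝ) ^ (47 / 36 + ε) ≤ b → ∀ (n : ℕ) (lam : Fin n → ℕ),
      plethMult a b n lam ≤ plethMult b a n lam :=
  const_all (by linarith) (t8 H59.Des6All.lb9 ε hε)

end Vale.Agent.P181.T8
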