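import Vale.Agent.P181.H403.Spec8
import Vale.Agent.P181.T7.Cond

set_option autoImplicit false

/-!
# P181, T8: one constant for all `j`
-/

namespace Vale.Agent.P181.T8

open Vale.Agent.P181.T4 Vale.Agent.P181.T7 Vale.Agent.P181.H280

lemma cells_anti {n : ℕ} {j k : ℕ} (h : j ≤ k) (lam : Fin n → ℕ) : cells k lam ≤ cells j lam := by
  unfold cells
  apply Finset.sum_le_sum
  intro i _
  split_ifs with h1 h2
  · exact le_rfl
  · omega
  · exact Nat.zero_le _
  · exact le_rfl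

/-- **(F8)** for all `j` with one constant: if `b ≥ C a ^ (1 + ε)` and there are at least
`C a ^ (1 + 1 / j + ε)` cells below the row `j` for some `j ≥ 1`, then Foulkes' inequality holds. -/
theorem uniform (h1 : F8 1 1) (h2 : ∀ j : ℕ, 2 ≤ j → F8 (1 / (j : ℝ)) j) (ε : ℝ) (hε : 0 < ε) :
    ∃ C : ℝ, 1 ≤ C ∧ ∀ (a b n : ℕ) (lam : Fin n → ℕ), C * (a : ℝ) ^ (1 + ε) ≤ b →
      (∃ j : ℕ, 1 ≤ j ∧ C * (a : ℝ) ^ (1 + 1 / (j : ℝ) + ε) ≤ cells j lam) →
      plethMult a b n lam ≤ plethMult b a n lam := by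
  have hF : ∀ j : ℕ, 1 ≤ j → ∃ C : ℝ, 1 ≤ C ∧ ∀ (a b n : ℕ) (lam : Fin n → ℕ),
      C * (a : ℝ) ^ (1 + ε / 2) ≤ b → C * (a : ℝ) ^ (1 + 1 / (j : ℝ) + ε / 2) ≤ cells j lam →
      plethMult a b n lam ≤ plethMult b a n lam := by
    intro j hj
    apply const_of_eventually (half_pos hε) (by linarith : (0 : ℝ) ≤ 1 + ε / 2)
    rcases Nat.lt_or_ge j 2 with h | h
    · have hj1 : j = 1 := by omega
      subst hj1
      have := h1 (ε / 2) (half_pos hε)
      simpa using this
    · exact h2 j h (ε / 2) (half_pos hε)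
  choose! K hK1 hK using hF
  obtain ⟨J, hJ⟩ := exists_nat_gt (2 / ε)
  have hJ0 : 1 ≤ J := by
    have h3 : (0 : ℝ) < J := lt_trans (by positivity) hJ
    exact_mod_cast h3
  refine ⟨∑ j ∈ Finset.range (J + 1), |K j| + 1, ?_, ?_⟩
  · have : 0 ≤ ∑ j ∈ Finset.range (J + 1), |K j| := Finset.sum_nonneg fun _ _ => abs_nonneg _
    linarith
  · intro a b n lam hb hD
    obtain ⟨j, hj, hD⟩ := hD
    set C : ℝ := ∑ j ∈ Finset.range (J + 1), |K j| + 1 with hC
    have hCK : ∀ i, i ≤ J → K i ≤ C := by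
      intro i hi
      have h3 : |K i| ≤ ∑ j ∈ Finset.range (J + 1), |K j| :=
        Finset.single_le_sum (f := fun j => |K j|) (fun _ _ => abs_nonneg _)
          (Finset.mem_range.2 (by omega))
      have h4 := le_abs_self (K i)
      linarith
    have hC0 : 0 ≤ C := by
      have : 0 ≤ ∑ j ∈ Finset.range (J + 1), |K j| := Finset.sum_nonneg fun _ _ => abs_nonneg _
      linarith
    -- the case `a = 0`
    rcases Nat.eq_zero_or_pos a with ha | ha
    · subst ha
      exact H463.big_stmt 0 b n lam (Nat.zero_le _)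
    have ha1 : (1 : ℝ) ≤ a := by exact_mod_cast ha
    have hb' : ∀ i, i ≤ J → K i * (a : ℝ) ^ (1 + ε / 2) ≤ b := by
      intro i hi
      refine le_trans ?_ hb
      calc K i * (a : ℝ) ^ (1 + ε / 2) ≤ C * (a : ℝ) ^ (1 + ε / 2) := by
            apply mul_le_mul_of_nonneg_right (hCK i hi) (by positivity)
        _ ≤ C * (a : ℝ) ^ (1 + ε) := by
            apply mul_le_mul_of_nonneg_left _ hC0
            exact Real.rpow_le_rpow_of_exponent_le ha1 (by linarith)
    rcases Nat.le_total j J with hjJ | hjJ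
    · refine hK j hj a b n lam (hb' j hjJ) (le_trans ?_ hD)
      calc K j * (a : ℝ) ^ (1 + 1 / (j : ℝ) + ε / 2)
          ≤ C * (a : ℝ) ^ (1 + 1 / (j : ℝ) + ε / 2) := by
            apply mul_le_mul_of_nonneg_right (hCK j hjJ) (by positivity)
        _ ≤ C * (a : ℝ) ^ (1 + 1 / (j : ℝ) + ε) := by
            apply mul_le_mul_of_nonneg_left _ hC0
            exact Real.rpow_le_rpow_of_exponent_le ha1 (by linarith)
    · refine hK J hJ0 a b n lam (hb' J le_rfl) ?_
      have h5 : (cells j lam : ℝ) ≤ cells J lam := by exact_mod_cast cells_anti hjJ lam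
      refine le_trans ?_ (hD.trans h5)
      have h6 : (0 : ℝ) < J := by exact_mod_cast hJ0
      have h7 : 1 / (J : ℝ) ≤ ε / 2 := by
        rw [div_lt_iff₀ hε] at hJ
        rw [div_le_iff₀ h6]
        linarith
      have h8 : (0 : ℝ) ≤ 1 / (j : ℝ) := by positivity
      calc K J * (a : ℝ) ^ (1 + 1 / (J : ℝ) + ε / 2)
          ≤ C * (a : ℝ) ^ (1 + 1 / (J : ℝ) + ε / 2) := by
            apply mul_le_mul_of_nonneg_right (hCK J le_rfl) (by positivity)
        _ ≤ C * (a : ℝ) ^ (1 + 1 / (j : ℝ) + ε) := by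
            apply mul_le_mul_of_nonneg_left _ hC0
            exact Real.rpow_le_rpow_of_exponent_le ha1 (by linarith)

end Vale.Agent.P181.T8
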